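import Vale.Agent.P363.Stmt
import Mathlib.Computability.TuringMachine.Computable

/-!
# P370: definitions of the statement

Binary words and polynomial time; quantum verifiers over the gate set `H, T, CNOT`; the class QMA
and QMA-hardness; instances of the electronic ground-state energy problem and their codes.
The space of `N`-electron states of finite kinetic energy and the quadratic form of
`-(1/2) Δ + w` are those of `Vale.Agent.P363.Stmt`.
-/

namespace Vale.Agent.P370Z

open Vale.Agent.P363.Stmt

noncomputable section

/-! ### Words, codes, polynomial time -/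

/-- Binary words. -/
abbrev Word : Type := List Bool

/-- A function on words is computed in polynomial time by a Turing machine (the multi-stack
machines of Mathlib, with finite alphabets). -/
def PolyTime (f : Word → Word) : Prop :=
  ∃ M : Turing.TM2ComputableInPolyTime (fun w : Word => w) (fun w : Word => w) f,
    ∀ k, Finite (M.tm.Γ k)

/-- The word `x` in self-delimiting form (each bit is preceded by `true`, the end is marked by
`false`), followed by the word `y`. -/
def pairW : Word → Word → Word
  | [], y => false :: y
  | b :: x, y => true :: b :: pairW x y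

/-- A list of words, each of them in self-delimiting form. -/
def listW : List Word → Word
  | [] => []
  | x :: l => pairW x (listW l)

/-- A natural number in unary. -/
def unaryW (n : ℕ) : Word := List.replicate n true

/-- A rational number: sign, binary absolute value of the numerator, binary denominator (in
lowest terms, positive). -/
def ratW (q : ℚ) : Word := listW [[decide (q.num < 0)], q.num.natAbs.bits, q.den.bits]

/-! ### Quantum verifiers and QMA -/

/-- Gates on `n` qubits: Hadamard, `T = diag(1, e^{iπ/4})`, and controlled NOT with control `c`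
and target `t`. -/
inductive Gate (n : ℕ) : Type
  | had (q : Fin n)
  | tee (q : Fin n)
  | cnot (c t : Fin n) (h : c ≠ t)

/-- Vectors of `n` qubits: amplitudes of the computational basis states. -/
abbrev QVec (n : ℕ) : Type := (Fin n → Bool) → ℂ

/-- The action of a gate on a vector. -/
def Gate.act {n : ℕ} : Gate n → QVec n → QVec n
  | .had q, ψ => fun y =>
      (ψ (Function.update y q false) + (if y q then -1 else 1) * ψ (Function.update y q true)) /
        (√2 : ℝ)
  | .tee q, ψ => fun y => (if y q then (1 + Complex.I) / (√2 : ℝ) else 1) * ψ y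
  | .cnot c t _, ψ => fun y => ψ (Function.update y t (xor (y t) (y c)))

/-- The action of a list of gates, the head of the list acting first. -/
def runGates {n : ℕ} : List (Gate n) → QVec n → QVec n
  | [], ψ => ψ
  | g :: l, ψ => runGates l (g.act ψ)

/-- A verifier circuit: `w` witness qubits, `a` ancilla qubits, an output qubit, a list of
gates. -/
structure Verifier : Type where
  w : ℕ
  a : ℕ
  out : Fin (w + a)
  gates : List (Gate (w + a))

/-- The witness `ψ` on the first `w` qubits, the ancillas in the state `|0…0⟩`. -/
def Verifier.input (V : Verifier) (ψ : QVec V.w) : QVec (V.w + V.a) := fun y =>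
  if ∀ j : Fin V.a, y (Fin.natAdd V.w j) = false then ψ (fun i => y (Fin.castAdd V.a i)) else 0

/-- The probability that the output qubit is measured as `1` after the circuit has run on the
unit vector `ψ`. -/
def Verifier.accept (V : Verifier) (ψ : QVec V.w) : ℝ :=
  ∑ y : Fin (V.w + V.a) → Bool,
    if y V.out then ‖runGates V.gates (V.input ψ) y‖ ^ 2 else 0

/-- A gate as a triple of numbers. -/
def Gate.data {n : ℕ} : Gate n → ℕ × ℕ × ℕ
  | .had q => (0, q, 0)
  | .tee q => (1, q, 0)
  | .cnot c t _ => (2, c, t)

/-- The description of a verifier: numbers of qubits in unary, output qubit and gates in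
binary. -/
def Verifier.code (V : Verifier) : Word :=
  listW [unaryW V.w, unaryW V.a, (V.out : ℕ).bits,
    listW (V.gates.map fun g => listW [g.data.1.bits, g.data.2.1.bits, g.data.2.2.bits])]

/-- Unit vectors. -/
def IsUnitVec {n : ℕ} (ψ : QVec n) : Prop := ∑ y, ‖ψ y‖ ^ 2 = 1

/-- The promise problem with YES words `Y` and NO words `X` is in QMA: a polynomial time machine
prints for each word `x` a verifier circuit which accepts some witness with probability at least
`2/3` if `x ∈ Y`, and every witness with probability at most `1/3` if `x ∈ X`. -/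
def InQMA (Y X : Set Word) : Prop :=
  ∃ V : Word → Verifier, PolyTime (fun x => (V x).code) ∧
    (∀ x ∈ Y, ∃ ψ, IsUnitVec ψ ∧ 2 / 3 ≤ (V x).accept ψ) ∧
    (∀ x ∈ X, ∀ ψ, IsUnitVec ψ → (V x).accept ψ ≤ 1 / 3)

/-- The promise problem with YES words `Y` and NO words `X` is QMA-hard under polynomial time
many-one reductions. -/
def QMAHard (Y X : Set Word) : Prop :=
  ∀ Y' X' : Set Word, InQMA Y' X' →
    ∃ f : Word → Word, PolyTime f ∧ (∀ x ∈ Y', f x ∈ Y) ∧ (∀ x ∈ X', f x ∈ X)

/-! ### The electronic ground-state energy problem -/

/-- Instances: nuclei (rational position, charge), number of electrons, thresholds. -/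
structure Instance : Type where
  nuclei : List ((ℚ × ℚ × ℚ) × ℕ)
  N : ℕ
  a : ℚ
  b : ℚ

/-- At least one nucleus, distinct positions, positive charges, at least one electron, `a < b`. -/
def Instance.Valid (I : Instance) : Prop :=
  I.nuclei ≠ [] ∧ (I.nuclei.map Prod.fst).Nodup ∧ (∀ n ∈ I.nuclei, 1 ≤ n.2) ∧ 1 ≤ I.N ∧ I.a < I.b

/-- The code of an instance: positions and thresholds as rationals, charges in binary, the number
of electrons in unary. -/
def Instance.code (I : Instance) : Word :=
  listW [listW (I.nuclei.map fun n => listW [ratW n.1.1, ratW n.1.2.1, ratW n.1.2.2, n.2.bits]),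
    unaryW I.N, ratW I.a, ratW I.b]

/-- A rational point of `ℝ³`. -/
def point (p : ℚ × ℚ × ℚ) : R3 := !₂[(p.1 : ℝ), (p.2.1 : ℝ), (p.2.2 : ℝ)]

/-- The potential: attraction of the electrons by the nuclei, repulsion of the electrons. -/
def Instance.potential (I : Instance) (x : Conf I.N) : ℝ :=
  -(∑ i, (I.nuclei.map fun n => (n.2 : ℝ) / ‖x i - point n.1‖).sum) +
    ∑ i, ∑ j ∈ Finset.Ioi i, 1 / ‖x i - x j‖

/-- The ground-state energy `E₀`: the infimum of the quadratic form of the Hamiltonian over the
normalized antisymmetric states in `H¹`. -/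
def Instance.groundEnergy (I : Instance) : EReal :=
  ⨅ Ψ : {Ψ : ElectronState I.N // normSq Ψ = 1}, ((energy I.potential Ψ.1 : ℝ) : EReal)

/-- The promise on the thresholds: `b - a ≥ L^{-c}`, `L` the length of the code. -/
def Instance.Gap (I : Instance) (c : ℕ) : Prop :=
  1 / (I.code.length : ℚ) ^ c ≤ I.b - I.a

/-- YES instances: `E₀ ≤ a`. -/
def yesWords (c : ℕ) : Set Word :=
  {x | ∃ I : Instance, I.code = x ∧ I.Valid ∧ I.Gap c ∧ I.groundEnergy ≤ ((I.a : ℝ) : EReal)}

/-- NO instances: `E₀ ≥ b`. -/
def noWords (c : ℕ) : Set Word :=
  {x | ∃ I : Instance, I.code = x ∧ I.Valid ∧ I.Gap c ∧ ((I.b : ℝ) : EReal) ≤ I.groundEnergy}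

end

end Vale.Agent.P370Z
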