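import Mathlib
import Vale.Agent.P370Z.Defs

/-!
# P370: internal definitions and the interfaces between the blocks of the proof

All analysis is done for real functions on `P3 = Fin 3 → ℝ` (careful: the norm instance of `P3` is
the sup norm; the Euclidean length is `nrm`).
-/

namespace Vale.Agent.P370Z

open MeasureTheory Finset

noncomputable section

/-! ### One-body and many-body forms -/

abbrev P3 : Type := Fin 3 → ℝ

/-- Euclidean length. -/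
def nrm (x : P3) : ℝ := √(∑ k, x k ^ 2)

/-- `C¹` with compact support. -/
def C1c {E : Type*} [NormedAddCommGroup E] [NormedSpace ℝ E] (f : E → ℝ) : Prop :=
  ContDiff ℝ 1 f ∧ HasCompactSupport f

/-- Derivative in the direction of the `k`-th coordinate. -/
def pd (k : Fin 3) (u : P3 → ℝ) (x : P3) : ℝ := fderiv ℝ u x (Pi.single k 1)

def ip (u v : P3 → ℝ) : ℝ := ∫ x, u x * v x

def kin1 (u v : P3 → ℝ) : ℝ := (1 / 2) * ∑ k, ∫ x, pd k u x * pd k v x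

/-- The bilinear form of `-(1/2) Δ + V`. -/
def qb (V u v : P3 → ℝ) : ℝ := kin1 u v + ∫ x, V x * (u x * v x)

def PotOK (V : P3 → ℝ) : Prop := Measurable V ∧ LocallyIntegrable V volume

abbrev Cf (N : ℕ) : Type := Fin N → P3

abbrev Sp (N : ℕ) : Type := Fin N → Fin 2

def pdN {N : ℕ} (i : Fin N) (k : Fin 3) (Ψ : Cf N → ℝ) (x : Cf N) : ℝ :=
  fderiv ℝ Ψ x (Pi.single i (Pi.single k 1))

/-- Real, `C¹`, compactly supported, antisymmetric wave functions with spin. -/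
def Adm {N : ℕ} (Ψ : Sp N → Cf N → ℝ) : Prop :=
  (∀ s, C1c (Ψ s)) ∧ ∀ (π : Equiv.Perm (Fin N)) (s : Sp N) (x : Cf N),
    Ψ (s ∘ π) (x ∘ π) = ((Equiv.Perm.sign π : ℤ) : ℝ) * Ψ s x

def nsq {N : ℕ} (Ψ : Sp N → Cf N → ℝ) : ℝ := ∑ s, ∫ x, Ψ s x ^ 2

def rep {N : ℕ} (x : Cf N) : ℝ := ∑ i, ∑ j ∈ Ioi i, 1 / nrm (x i - x j)

/-- Energy with one-body potential `V` and repulsion of strength `g`. -/
def en {N : ℕ} (V : P3 → ℝ) (g : ℝ) (Ψ : Sp N → Cf N → ℝ) : ℝ :=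
  ∑ s, ((1 / 2) * (∑ i, ∑ k, ∫ x, pdN i k (Ψ s) x ^ 2) +
    ∫ x, ((∑ i, V (x i)) + g * rep x) * Ψ s x ^ 2)

def pt (p : ℚ × ℚ × ℚ) : P3 := ![(p.1 : ℝ), (p.2.1 : ℝ), (p.2.2 : ℝ)]

/-- The potential of the nuclei after the change of scale `y = lam * x`, `E = lam ^ 2 * E'`. -/
def scPot (I : Instance) (lam : ℝ) (x : P3) : ℝ :=
  -(I.nuclei.map fun n => ((n.2 : ℝ) / lam) / nrm (x - lam • pt n.1)).sum

/-! ### Finite tensors -/

section Tensors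

variable {ι L Ec B C D : Type}

def idm [DecidableEq L] (a b : L) : ℝ := if a = b then 1 else 0

def outer (u : L → ℝ) (a b : L) : ℝ := u a * u b

/-- The bilinear form of the operator `⨂ k, M k` on functions of configurations `ι → L`. -/
def tens [Fintype ι] [DecidableEq ι] [Fintype L] (M : ι → L → L → ℝ) (c c' : (ι → L) → ℝ) : ℝ :=
  ∑ l, ∑ l', c l * c' l' * ∏ k, M k (l k) (l' k)

/-- `A` at the place `i`, `A'` at the place `j`, the identity elsewhere. -/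
def two [DecidableEq ι] [DecidableEq L] (i j : ι) (A A' : L → L → ℝ) (k : ι) : L → L → ℝ :=
  if k = i then A else if k = j then A' else idm

/-- The form of `∑ e, ∑ i ≠ j, |U e⟩⟨U e|_i ⊗ |W e⟩⟨W e|_j`. -/
def HF [Fintype ι] [DecidableEq ι] [Fintype L] [DecidableEq L] [Fintype Ec]
    (U W : Ec → L → ℝ) (c : (ι → L) → ℝ) : ℝ :=
  ∑ e, ∑ i, ∑ j ∈ univ.erase i, tens (two i j (outer (U e)) (outer (W e))) c c

def nsqT [Fintype ι] [DecidableEq ι] [Fintype L] (c : (ι → L) → ℝ) : ℝ := ∑ l, c l ^ 2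

/-- Extension by zero to the core orbitals. -/
def ext0 (C : Type) (u : D → ℝ) : C ⊕ D → ℝ := Sum.elim (fun _ => 0) u

/-- Two valence orbitals of the same block. -/
def SameBlk (blk : D → B) : C ⊕ D → C ⊕ D → Prop
  | .inr d, .inr d' => blk d = blk d'
  | _, _ => False

/-- Each vector `U e`, `W e` lives in one block. -/
structure BlkOK (blk : D → B) (U W : Ec → D → ℝ) : Prop where
  blkU : ∀ e d d', U e d ≠ 0 → U e d' ≠ 0 → blk d = blk d'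
  blkW : ∀ e d d', W e d ≠ 0 → W e d' ≠ 0 → blk d = blk d'

/-- The columns of `U` are orthonormal. -/
def Tight [Fintype Ec] [DecidableEq D] (U : Ec → D → ℝ) : Prop :=
  ∀ d d', ∑ e, U e d * U e d' = idm d d'

/-- Particle number `b` sits in block `b`. -/
def IdPat (blk : D → B) (ψ : (B → D) → ℝ) : Prop := ∀ l, ψ l ≠ 0 → ∀ b, blk (l b) = b

/-- Lower bound for the model with one particle per block, and penalty for two particles in the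
same block. -/
structure KitLow [Fintype B] [DecidableEq B] [Fintype D] [DecidableEq D] [Fintype Ec]
    (blk : D → B) (U W : Ec → D → ℝ) (b : ℝ) : Prop where
  low : ∀ ψ : (B → D) → ℝ, IdPat blk ψ → b * nsqT ψ ≤ HF U W ψ
  pen : ∀ (β : B) (c : D → D → ℝ), (∀ d d', c d d' ≠ 0 → blk d = β ∧ blk d' = β) →
    b * ∑ d, ∑ d', c d d' ^ 2 ≤ ∑ e, (∑ d, ∑ d', U e d * W e d' * c d d') ^ 2

def KitUp [Fintype B] [DecidableEq B] [Fintype D] [DecidableEq D] [Fintype Ec]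
    (blk : D → B) (U W : Ec → D → ℝ) (a : ℝ) : Prop :=
  ∃ ψ : (B → D) → ℝ, IdPat blk ψ ∧ 0 < nsqT ψ ∧ HF U W ψ ≤ a * nsqT ψ

/-- Lower bound for `N` particles of which `nb` are valence particles. -/
def MFLow (N : ℕ) (C : Type) [Fintype C] [DecidableEq C] [Fintype D] [DecidableEq D] [Fintype Ec]
    (U W : Ec → D → ℝ) (nb : ℕ) (b : ℝ) : Prop :=
  ∀ c : (Fin N → C ⊕ D) → ℝ,
    (∀ l, c l ≠ 0 → (univ.filter fun i => (l i).isRight = true).card = nb) →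
    b * nsqT c ≤ HF (fun e => ext0 C (U e)) (fun e => ext0 C (W e)) c

/-- An antisymmetric trial tensor with full core and one valence particle per block. -/
structure MFTrial (N : ℕ) (C : Type) [Fintype C] [DecidableEq C] [Fintype D] [DecidableEq D]
    [Fintype Ec] (blk : D → B) (U W : Ec → D → ℝ) (a : ℝ)
    (c : Sp N → (Fin N → C ⊕ D) → ℝ) : Prop where
  anti : ∀ (π : Equiv.Perm (Fin N)) (s : Sp N) (l : Fin N → C ⊕ D),
    c (s ∘ π) (l ∘ π) = ((Equiv.Perm.sign π : ℤ) : ℝ) * c s l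
  pos : 0 < ∑ s, nsqT (c s)
  up : ∀ s, HF (fun e => ext0 C (U e)) (fun e => ext0 C (W e)) (c s) ≤ a * nsqT (c s)
  full : ∀ s l, c s l ≠ 0 →
    (univ.filter fun i => (l i).isLeft = true).card = 2 * Fintype.card C
  sep : ∀ s l, c s l ≠ 0 → ∀ i j, i ≠ j → ¬ SameBlk blk (l i) (l j)
  slot : ∀ s l i μ, c s l ≠ 0 → c s (Function.update l i μ) ≠ 0 →
    l i = μ ∨ ((l i).isRight = true ∧ μ.isRight = true)

end Tensors

/-! ### One-body interfaces -/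

section OneBody

variable {C D R Ec B : Type}

/-- Core orbitals at energy `E - Tc`, valence orbitals at energy `E`, gap `γ` above. -/
structure OB [Fintype C] [DecidableEq C] [Fintype D] [DecidableEq D] (V : P3 → ℝ)
    (f : C ⊕ D → P3 → ℝ) (r : C → P3 → ℝ) (E Tc γ δ τ : ℝ) : Prop where
  f_c1c : ∀ μ, C1c (f μ)
  r_c1c : ∀ c, C1c (r c)
  on : ∀ μ ν, ip (f μ) (f ν) = idm μ ν
  r_orth : ∀ c c', ip (f (.inl c')) (r c) = 0
  r_norm : ∀ c, ip (r c) (r c) ≤ τ ^ 2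
  low : ∀ u, C1c u → (E - δ) * ip u u - Tc * ∑ c, ip (f (.inl c)) u ^ 2 +
    γ * (ip u u - ∑ μ, ip (f μ) u ^ 2) + 2 * ∑ c, ip (f (.inl c)) u * ip (r c) u ≤ qb V u u
  up_core : ∀ c, qb V (f (.inl c)) (f (.inl c)) ≤ E - Tc + δ
  up_val : ∀ d d', |qb V (f (.inr d)) (f (.inr d')) - E * idm d d'| ≤ δ

/-- The symmetric indicator of the contact pairs. -/
def contact [Fintype Ec] (A A' : Ec → Set P3) (x y : P3) : ℝ :=
  ∑ e, ((A e).indicator 1 x * (A' e).indicator 1 y + (A' e).indicator 1 x * (A e).indicator 1 y)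

/-- The Coulomb repulsion is, up to small errors, a contact interaction. -/
structure CT [Fintype Ec] (f : C ⊕ D → P3 → ℝ) (blk : D → B) (U W : Ec → D → ℝ)
    (A A' : Ec → Set P3) (ϱ : P3 → P3 → ℝ) (κlo κhi ε η : ℝ) : Prop where
  measA : ∀ e, MeasurableSet (A e)
  measA' : ∀ e, MeasurableSet (A' e)
  contA : ∀ e μ ν, |(∫ x in A e, f μ x * f ν x) - ext0 C (U e) μ * ext0 C (U e) ν| ≤ ε
  contA' : ∀ e μ ν, |(∫ x in A' e, f μ x * f ν x) - ext0 C (W e) μ * ext0 C (W e) ν| ≤ ε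
  lo : ∀ x y, κlo * contact A A' x y ≤ 1 / nrm (x - y)
  hi : ∀ x y, 1 / nrm (x - y) ≤ κhi * contact A A' x y + ϱ x y
  meas : Measurable fun p : P3 × P3 => ϱ p.1 p.2
  nonneg : ∀ x y, 0 ≤ ϱ x y
  le : ∀ x y, ϱ x y ≤ 1 / nrm (x - y)
  rem : ∀ μ ν, ¬ SameBlk blk μ ν → ∫ p : P3 × P3, f μ p.1 ^ 2 * f ν p.2 ^ 2 * ϱ p.1 p.2 ≤ η

/-- A band of orbitals `e κ` with tight-binding matrix `E + h` and gap `Γ` above. -/
structure Band3 [Fintype R] [DecidableEq R] (V : P3 → ℝ) (e : R → P3 → ℝ) (h : R → R → ℝ)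
    (E Γ δ : ℝ) : Prop where
  c1c : ∀ κ, C1c (e κ)
  on : ∀ κ κ', ip (e κ) (e κ') = idm κ κ'
  low : ∀ u, C1c u → (E - δ) * ip u u + (∑ κ, ∑ κ', ip (e κ) u * h κ κ' * ip (e κ') u) +
    Γ * (ip u u - ∑ κ, ip (e κ) u ^ 2) ≤ qb V u u
  up : ∀ κ κ', |qb V (e κ) (e κ') - (E * idm κ κ' + h κ κ')| ≤ δ

/-- The finite-dimensional form of `OB`. -/
structure GridOK [Fintype R] [Fintype C] [DecidableEq C] [Fintype D] [DecidableEq D]
    (h : R → R → ℝ) (O : C ⊕ D → R → ℝ) (Rc : C → R → ℝ) (Tc γ δ τ : ℝ) : Prop where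
  on : ∀ μ ν, ∑ κ, O μ κ * O ν κ = idm μ ν
  orth : ∀ c c', ∑ κ, O (.inl c') κ * Rc c κ = 0
  norm : ∀ c, ∑ κ, Rc c κ ^ 2 ≤ τ ^ 2
  low : ∀ a : R → ℝ, -δ * (∑ κ, a κ ^ 2) - Tc * ∑ c, (∑ κ, O (.inl c) κ * a κ) ^ 2 +
    γ * ((∑ κ, a κ ^ 2) - ∑ μ, (∑ κ, O μ κ * a κ) ^ 2) +
    2 * ∑ c, (∑ κ, O (.inl c) κ * a κ) * (∑ κ, Rc c κ * a κ) ≤ ∑ κ, ∑ κ', a κ * h κ κ' * a κ'
  core : ∀ c, ∑ κ, ∑ κ', O (.inl c) κ * h κ κ' * O (.inl c) κ' = -Tc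
  val : ∀ d d', ∑ κ, ∑ κ', O (.inr d) κ * h κ κ' * O (.inr d') κ' = 0

/-- Where the orbitals of the grid model live. Room `k` belongs to the cluster `k / 2` and to the
block `k / 4`; contact `e` sits in the block `(pos e, pos e)`. -/
structure GridGeo {K : ℕ} (O : C ⊕ D → Fin K × Fin K → ℝ) (blk : D → B) (U W : Ec → D → ℝ)
    (pos : Ec → ℕ) (wide : ℕ → Prop) : Prop where
  unit : ∀ μ, ∑ κ, O μ κ ^ 2 = 1
  pos_lt : ∀ e, 4 * pos e + 3 < K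
  pos_inj : Function.Injective pos
  ampA : ∀ e, ∃ s : ℝ, s ^ 2 = 1 ∧ ∀ μ (κ : Fin K × Fin K), (κ.1 : ℕ) / 2 = 2 * pos e →
    (κ.2 : ℕ) / 2 = 2 * pos e + 1 → O μ κ = s * ext0 C (U e) μ / 2
  ampB : ∀ e, ∃ s : ℝ, s ^ 2 = 1 ∧ ∀ μ (κ : Fin K × Fin K), (κ.1 : ℕ) / 2 = 2 * pos e + 1 →
    (κ.2 : ℕ) / 2 = 2 * pos e → O μ κ = s * ext0 C (W e) μ / 2
  sep : ∀ μ ν (κ κ' : Fin K × Fin K), O μ κ ≠ 0 → O ν κ' ≠ 0 → ¬ SameBlk blk μ ν →
    wide (κ.1 / 4) ∨ wide (κ.2 / 4) ∨ wide (κ'.1 / 4) ∨ wide (κ'.2 / 4) ∨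
    (κ.1 : ℕ) / 4 ≠ κ'.1 / 4 ∨ (κ.2 : ℕ) / 4 ≠ κ'.2 / 4 ∨
    ∃ e, ((κ.1 : ℕ) / 2 = 2 * pos e ∧ (κ.2 : ℕ) / 2 = 2 * pos e + 1 ∧
        (κ'.1 : ℕ) / 2 = 2 * pos e + 1 ∧ (κ'.2 : ℕ) / 2 = 2 * pos e) ∨
      ((κ.1 : ℕ) / 2 = 2 * pos e + 1 ∧ (κ.2 : ℕ) / 2 = 2 * pos e ∧
        (κ'.1 : ℕ) / 2 = 2 * pos e ∧ (κ'.2 : ℕ) / 2 = 2 * pos e + 1)

end OneBody

/-- The path Laplacian on `0, …, K - 1` with conductance `c j` between `j - 1` and `j`. -/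
def lapM {F : Type} [Field F] (K : ℕ) (c : ℕ → F) (k k' : ℕ) : F :=
  if k = k' then (if 0 < k then c k else 0) + (if k + 1 < K then c (k + 1) else 0)
  else if k' = k + 1 then -c k' else if k = k' + 1 then -c k else 0

/-- The matrix `H ⊗ 1 + 1 ⊗ H + diag w` on the grid of rooms. -/
def gridM (K : ℕ) (H w : ℕ → ℕ → ℝ) (κ κ' : Fin K × Fin K) : ℝ :=
  H κ.1 κ'.1 * idm κ.2 κ'.2 + idm κ.1 κ'.1 * H κ.2 κ'.2 + w κ.1 κ.2 * idm κ κ'

/-! ### Bounds on derivatives -/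

/-- `f` has `k` continuous derivatives, all bounded by `C * W`. -/
def Bd : ℕ → ℝ → (ℝ → ℝ) → (ℝ → ℝ) → Prop
  | 0, C, W, f => Continuous f ∧ ∀ x, |f x| ≤ C * W x
  | k + 1, C, W, f => Differentiable ℝ f ∧ (∀ x, |f x| ≤ C * W x) ∧ Bd k C W (deriv f)

/-- All derivatives of `f` along coordinates, up to total order `k`, are continuous and bounded
by `C`. -/
def BdM : ℕ → ℝ → (P3 → ℝ) → Prop
  | 0, C, f => Continuous f ∧ ∀ x, |f x| ≤ C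
  | k + 1, C, f => Differentiable ℝ f ∧ (∀ x, |f x| ≤ C) ∧ ∀ i, BdM k C (pd i f)

/-! ### One-dimensional bands -/

/-- `-(1/2) e'' + u e`. -/
def res1 (u e : ℝ → ℝ) (x : ℝ) : ℝ := -(1 / 2) * deriv (deriv e) x + u x * e x

/-- A one-dimensional band on `[0, Λ]`: orbitals `e k`, `k < K`, matrix `H`, gap `Γ`; functions
`b k` equal to one on room `k`; zones `[zl k, zr k]` which carry almost all of `e k`. -/
structure Band1 (K : ℕ) (Λ : ℝ) (u : ℝ → ℝ) (e b : ℕ → ℝ → ℝ) (H : ℕ → ℕ → ℝ)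
    (zl zr sb : ℕ → ℝ) (C Γ τ δm δg εb εz : ℝ) : Prop where
  u_cont : Continuous u
  u_bd : ∀ x, |u x| ≤ C
  e_bd : ∀ k < K, Bd 4 C (fun _ => 1) (e k)
  e_supp : ∀ k < K, ∀ x, e k x ≠ 0 → 1 ≤ x ∧ x ≤ Λ - 1
  on : ∀ k < K, ∀ l < K, ∫ x, e k x * e l x = idm k l
  res_bd : ∀ k < K, ∀ x, |res1 u (e k) x| ≤ τ
  mat : ∀ k < K, ∀ l < K, |(∫ x, e k x * res1 u (e l) x) - H k l| ≤ δm
  gap : ∀ g : ℝ → ℝ, ContDiff ℝ 1 g →
    Γ * ((∫ x in Set.Icc 0 Λ, g x ^ 2) - ∑ k ∈ range K, (∫ x, e k x * g x) ^ 2) -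
      δg * ∫ x in Set.Icc 0 Λ, g x ^ 2 ≤
      ∫ x in Set.Icc 0 Λ, ((1 / 2) * deriv g x ^ 2 + u x * g x ^ 2)
  b_cont : ∀ k < K, Continuous (b k)
  b_nonneg : ∀ k < K, ∀ x, 0 ≤ b k x
  b_sum : ∀ x, ∑ k ∈ range K, b k x ≤ 1
  b_mat : ∀ k < K, ∀ l < K, ∀ l' < K,
    |(∫ x, b k x * (e l x * e l' x)) - idm k l * idm k l'| ≤ εb
  zone : ∀ k < K, ∫ x in (Set.Icc (zl k) (zr k))ᶜ, e k x ^ 2 ≤ εz
  sup : ∀ k < K, ∀ x ∈ Set.Icc (zl k) (zr k), e k x ^ 2 ≤ sb k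

/-- The ground state of the oscillator in the third direction, cut off at `z0 + 1`. -/
structure ZBand (ω z0 L1 : ℝ) (e : ℝ → ℝ) (C Γ τ δg : ℝ) : Prop where
  e_bd : Bd 4 C (fun _ => 1) e
  e_supp : ∀ z, e z ≠ 0 → |z| ≤ z0 + 1
  on : ∫ z, e z * e z = 1
  res_bd : ∀ z, |res1 (fun z => ω ^ 2 * z ^ 2 / 2 - ω / 2) e z| ≤ τ
  gap : ∀ u : ℝ → ℝ, Measurable u → (∃ M, ∀ z, |u z| ≤ M) →
    (∀ z, |z| ≤ 2 * L1 → u z = ω ^ 2 * z ^ 2 / 2 - ω / 2) → (∀ z, L1 ≤ |z| → 1 ≤ u z) →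
    ∀ g : ℝ → ℝ, C1c g →
      Γ * ((∫ z, g z ^ 2) - (∫ z, e z * g z) ^ 2) - δg * ∫ z, g z ^ 2 ≤
        ∫ z, ((1 / 2) * deriv g z ^ 2 + u z * g z ^ 2)

/-- The product orbitals. -/
def prodOrb {K : ℕ} (e : ℕ → ℝ → ℝ) (e3 : ℝ → ℝ) (κ : Fin K × Fin K) (x : P3) : ℝ :=
  e κ.1 (x 0) * e κ.2 (x 1) * e3 (x 2)

/-- Linear combinations of band orbitals. -/
def comb {R : Type} [Fintype R] (O : R → ℝ) (e : R → P3 → ℝ) (x : P3) : ℝ := ∑ κ, O κ * e κ x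

/-! ### Quadrature -/

/-- The box `|x k| ≤ l k`. -/
def box (l : Fin 3 → ℕ) : Set P3 := {x | ∀ k, |x k| ≤ l k}

/-- Undisplaced nodes: three per cell of side `1 / m`. -/
def xi {F : Type} [Field F] (m l n : ℕ) : F := -(l : F) + (2 * n + 1) / (6 * m)

/-- The weights `3, 2, 3`. -/
def wt (n : ℕ) : ℕ := if n % 3 = 1 then 2 else 3

/-- The indices of the nodes of one family. -/
def nodes (m : ℕ) (l : Fin 3 → ℕ) : Finset (Fin 3 → ℕ) :=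
  Fintype.piFinset fun k => range (6 * m * l k)

/-- The point charges applied to a function. -/
def nuD (m ρ : ℕ) (l : Fin 3 → ℕ) (y : Fin 3 → (Fin 3 → ℕ) → P3) (g : P3 → ℝ) : ℝ :=
  ∑ i, ∑ n ∈ nodes m l, (ρ : ℝ) / (512 * (m : ℝ) ^ 3) * ((∏ k, wt (n k) : ℕ) : ℝ) * g (y i n)

/-- The continuous charge `3 ρ + Δ F` on the box applied to a function. -/
def muD (ρ : ℕ) (l : Fin 3 → ℕ) (F : P3 → ℝ) (g : P3 → ℝ) : ℝ :=
  ∫ y in box l, (3 * (ρ : ℝ) + ∑ i, pd i (pd i F) y) * g y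

/-- The nodes of family `i` are displaced in direction `i`, with precision `δ`. -/
def NodesOK (m ρ : ℕ) (l : Fin 3 → ℕ) (F : P3 → ℝ) (y : Fin 3 → (Fin 3 → ℕ) → P3) (δ : ℝ) : Prop :=
  ∀ i, ∀ n ∈ nodes m l, (∀ k, k ≠ i → |y i n k - xi m (l k) (n k)| ≤ δ) ∧
    |y i n i + pd i F (Function.update (fun k => xi m (l k) (n k)) i (y i n i)) / ρ -
      xi m (l i) (n i)| ≤ δ

/-- The error of the discretization of the potential. -/
def discErr (m ρ : ℕ) (l : Fin 3 → ℕ) (F : P3 → ℝ) (y : Fin 3 → (Fin 3 → ℕ) → P3) (x : P3) : ℝ :=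
  muD ρ l F (fun t => 1 / nrm (x - t)) - nuD m ρ l y (fun t => 1 / nrm (x - t))

/-- What is used about the discretization error `D`. -/
structure DiscOK (D : P3 → ℝ) (L0 η1 η2 : ℝ) : Prop where
  pot : PotOK D
  weak : ∀ (w : P3 → ℝ) (Cw : ℝ), BdM 4 Cw w → (∀ x, w x ≠ 0 → ∀ k, |x k| ≤ L0) →
    |∫ x, D x * w x| ≤ Cw * η1
  int : ∀ u, C1c u → Integrable fun x => D x ^ 2 * u x ^ 2
  strong : ∀ u, C1c u → ∫ x, D x ^ 2 * u x ^ 2 ≤ η2 ^ 2 * (ip u u + 2 * kin1 u u)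

/-- The potential of the uniformly charged box. -/
def slabPot (ρ : ℕ) (l : Fin 3 → ℕ) (x : P3) : ℝ :=
  -(3 * (ρ : ℝ) / (4 * Real.pi)) * ∫ y in box l, 1 / nrm (x - y)

/-- The integral of `1 / |x|` over the square `[-1, 1]²`. -/
def kap0 : ℝ := ∫ p in Set.Icc (-1 : ℝ) 1 ×ˢ Set.Icc (-1 : ℝ) 1, 1 / √(p.1 ^ 2 + p.2 ^ 2)

end

end Vale.Agent.P370Z
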