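import Vale.Agent.P370Z.Basic
import Vale.Agent.Lib.PolyTime.Unary

/-!
# P370: the reduction (concrete definitions)

Everything is a formula in natural numbers, integers and rationals. Functions which are needed both
over `ℚ` (by the machine) and over `ℝ` (by the analysis) are defined over an ordered field `F`.
-/

namespace Vale.Agent.P370Z

open Finset
open Vale.Agent.Lib.PolyTime (Un)

noncomputable section

/-! ### The smooth step and level functions -/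

/-- Coefficients of `β t = 218790 ∫₀ᵗ (s (1 - s))⁸ ds = ∑ k < 9, betaC k * t ^ (9 + k)`. -/
def betaC (k : ℕ) : ℤ :=
  [24310, -175032, 556920, -1021020, 1178100, -875160, 408408, -109395, 12870].getD k 0

section Fld

variable {F : Type} [Field F] [LinearOrder F] [IsStrictOrderedRing F] [FloorRing F]

/-- The `n`-th derivative of the polynomial `β`. -/
def betaD (n : ℕ) (t : F) : F :=
  ∑ k ∈ range 9, (betaC k : F) * ((9 + k).descFactorial n : F) * t ^ (9 + k - n)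

/-- The `n`-th derivative of the smooth interpolation of the values `g i` at the integers. -/
def levD (n : ℕ) (g : ℤ → F) (x : F) : F :=
  (if n = 0 then g ⌊x⌋ else 0) + (g (⌊x⌋ + 1) - g ⌊x⌋) * betaD n (Int.fract x)

/-- The same in two variables. -/
def levD2 (n m : ℕ) (G : ℤ → ℤ → F) (x y : F) : F := levD n (fun i => levD m (G i) y) x

end Fld

/-! ### Chains of rooms and corridors -/

/-- `K` rooms; room `k` has level `2 ^ (-ρ k)` and width `a * 4 ^ ρ k`; corridor `j ≤ K` (to the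
left of room `j`) has a plateau of level `2 ^ (-s j)` and length `R j`. -/
structure ChD where
  K : ℕ
  a : ℕ
  ρ : ℕ → ℕ
  s : ℕ → ℕ
  R : ℕ → ℕ

namespace ChD

variable (c : ChD)

/-- left end of plateau `j` -/
def pl (j : ℕ) : ℕ :=
  2 + ∑ i ∈ range j, (c.R i + (c.s i - c.ρ i) + c.a * 4 ^ c.ρ i + (c.s (i + 1) - c.ρ i))

/-- right end of plateau `j` -/
def pr (j : ℕ) : ℕ := c.pl j + c.R j

/-- left end of room `k` -/
def l (k : ℕ) : ℕ := c.pr k + (c.s k - c.ρ k)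

/-- right end of room `k` -/
def r (k : ℕ) : ℕ := c.l k + c.a * 4 ^ c.ρ k

def len : ℕ := c.pr c.K + 2

/-- the last plateau which begins before `i` (or `0`) -/
def idx (i : ℤ) : ℕ := ∑ j ∈ range c.K, if (c.pl (j + 1) : ℤ) ≤ i then 1 else 0

/-- the level exponent at the integer `i` -/
def sig (i : ℤ) : ℕ :=
  if c.idx i = c.K ∨ i ≤ c.pr (c.idx i) then c.s (c.idx i)
  else if i ≤ c.l (c.idx i) then c.ρ (c.idx i) + ((c.l (c.idx i) : ℤ) - i).toNat
  else c.ρ (c.idx i) + (i - (c.r (c.idx i) : ℤ)).toNat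

/-- `k + 1` on the territory of room `k`; `0` and `K + 1` at the two ends -/
def zn (i : ℤ) : ℕ := ∑ j ∈ range (c.K + 1), if (c.pl j + 1 : ℤ) ≤ i then 1 else 0

variable {F : Type} [Field F] [LinearOrder F] [IsStrictOrderedRing F] [FloorRing F]

def phi (i : ℤ) : F := (1 / 2) ^ c.sig i

def eta (i : ℤ) : F := if 1 ≤ i ∧ i + 1 ≤ c.len then 1 else 0

def bump (k : ℕ) (i : ℤ) : F := if c.zn i = k + 1 then 1 else 0

def wbar (w : ℕ → ℕ → F) (i j : ℤ) : F :=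
  if (1 ≤ c.zn i ∧ c.zn i ≤ c.K) ∧ (1 ≤ c.zn j ∧ c.zn j ≤ c.K) then w (c.zn i - 1) (c.zn j - 1)
  else 0

/-- the nominal hopping through corridor `j` -/
def hop (j : ℕ) : F := (1 / 4) ^ c.s j / (2 * c.R j * c.a)

/-- `φ'' / (2 φ)` -/
def u0 (x : F) : F := levD 2 c.phi x / (2 * levD 0 c.phi x)

/-- the derivative of `u0` -/
def u1 (x : F) : F :=
  (levD 3 c.phi x * levD 0 c.phi x - levD 2 c.phi x * levD 1 c.phi x) / (2 * levD 0 c.phi x ^ 2)

structure OK (m0 : ℕ) (θ : ℝ) : Prop where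
  K_pos : 1 ≤ c.K
  m0_ge : 8 ≤ m0
  a_ge : m0 ≤ c.a
  R_ge : ∀ j ≤ c.K, m0 ≤ c.R j
  s_gt : ∀ k < c.K, c.ρ k < c.s k ∧ c.ρ k < c.s (k + 1)
  small : ∀ j ≤ c.K, ∀ k < c.K, (4 : ℝ) ^ c.ρ k * (1 / 4) ^ c.s j ≤ θ
  small0 : (1 / 2 : ℝ) ^ c.s 0 ≤ θ
  smallK : (1 / 2 : ℝ) ^ c.s c.K ≤ θ

end ChD

/-! ### The smooth potential -/

section Fld

variable {F : Type} [Field F] [LinearOrder F] [IsStrictOrderedRing F] [FloorRing F]

def zeta (Lc : ℕ) (i : ℤ) : F := if |i| ≤ Lc then 1 else 0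

def G0 (c : ChD) (w : ℕ → ℕ → F) (H : ℕ) (x y : F) : F :=
  c.u0 x + c.u0 y + levD2 0 0 (c.wbar w) x y - H

def F0 (c : ChD) (w : ℕ → ℕ → F) (H Lc : ℕ) (x y z : F) : F :=
  levD 0 (zeta Lc) z * levD 0 c.eta x * levD 0 c.eta y * G0 c w H x y

/-- The derivative of `F0` in direction `i`. -/
def dF0 (c : ChD) (w : ℕ → ℕ → F) (H Lc : ℕ) (i : ℕ) (x y z : F) : F :=
  if i = 0 then levD 0 (zeta Lc) z * levD 0 c.eta y *
    (levD 1 c.eta x * G0 c w H x y + levD 0 c.eta x * (c.u1 x + levD2 1 0 (c.wbar w) x y))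
  else if i = 1 then levD 0 (zeta Lc) z * levD 0 c.eta x *
    (levD 1 c.eta y * G0 c w H x y + levD 0 c.eta y * (c.u1 y + levD2 0 1 (c.wbar w) x y))
  else levD 1 (zeta Lc) z * levD 0 c.eta x * levD 0 c.eta y * G0 c w H x y

end Fld

/-- An approximate solution of `φ x = ξ` on the grid `ξ + ℤ / Δ`, within distance one of `ξ`. -/
def solve (Δ : ℕ) (φ : ℚ → ℚ) (ξ : ℚ) : ℚ :=
  ξ + ((((List.range (2 * Δ + 1)).takeWhile
    fun j : ℕ => decide (φ (ξ + ((j : ℚ) - Δ) / Δ) ≤ ξ)).length : ℚ) - Δ) / Δ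

/-! ### The grid of wires

`nE` contacts, `nD` valence orbitals. Lines (blocks) `t < nI`; clusters `i < 2 nI` (`i = 2 t` link,
`i = 2 t + 1` crossing); rooms `k < 4 nI` (cluster `k / 2`). The row wire of line `t` runs along the
cluster row `2 t + 1` through the cluster columns `lo t ≤ i ≤ hi t`; columns symmetrically. -/

def nI (nE nD : ℕ) : ℕ := 2 * nE + nD + 1

def nK (nE nD : ℕ) : ℕ := 4 * nI nE nD

/-- number of clusters of a wire -/
def nW (nE nD : ℕ) : ℕ := 2 * (nD + nE) + 1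

def isMain (nE nD t : ℕ) : Prop := nE ≤ t ∧ t < nE + nD

instance (nE nD t : ℕ) : Decidable (isMain nE nD t) := by unfold isMain; infer_instance

def wlo (nE nD t : ℕ) : ℕ := if isMain nE nD t then 2 * nE else 2 * (t - nE - nD)

def whi (nE nD t : ℕ) : ℕ := if isMain nE nD t then 2 * (2 * nE + nD) else 2 * t

/-- the cluster `(i, j)` lies on a row wire -/
def hAct (nE nD i j : ℕ) : Prop :=
  j % 2 = 1 ∧ nE ≤ j / 2 ∧ j / 2 < 2 * nE + nD ∧ wlo nE nD (j / 2) ≤ i ∧ i ≤ whi nE nD (j / 2)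

instance (nE nD i j : ℕ) : Decidable (hAct nE nD i j) := by unfold hAct; infer_instance

/-- number of crossings, i.e. of core orbitals -/
def nC (nE nD : ℕ) : ℕ :=
  ∑ i ∈ range (2 * nI nE nD), ∑ j ∈ range (2 * nI nE nD),
    if hAct nE nD i j ∧ hAct nE nD j i then 1 else 0

/-- the crossings -/
abbrev Core (nE nD : ℕ) : Type :=
  {p : Fin (2 * nI nE nD) × Fin (2 * nI nE nD) // hAct nE nD p.1 p.2 ∧ hAct nE nD p.2 p.1}

section Fld

variable {F : Type} [Field F]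

def hopG (T t : F) (j : ℕ) : F := if j % 2 = 1 then T else t

/-- coupling of the row wire `J` and the column wire `I` -/
def cpl (nE nD : ℕ) (U W : ℕ → ℕ → F) (J I : ℕ) : F :=
  if isMain nE nD J ∧ isMain nE nD I then (if J = I then 16 / 25 else 0)
  else if isMain nE nD I then 3 / 5 * U (J - nE - nD) (I - nE)
  else 3 / 5 * W (I - nE - nD) (J - nE)

/-- number of neighbours of cluster `i` on the wire of line `t` -/
def wdeg (nE nD t i : ℕ) : ℕ :=
  (if i = wlo nE nD t then 0 else 1) + (if i = whi nE nD t then 0 else 1)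

/-- on-site energies for the hopping matrix with zero diagonal -/
def wPre (nE nD : ℕ) (U W : ℕ → ℕ → F) (T t β : F) (k l : ℕ) : F :=
  if hAct nE nD (k / 2) (l / 2) ∧ hAct nE nD (l / 2) (k / 2) then
    t + β - β * nW nE nD * cpl nE nD U W (l / 4) (k / 4) * (-1) ^ (k / 4 + l / 4 + k + l)
  else if hAct nE nD (k / 2) (l / 2) then 2 * T + t / 2 * wdeg nE nD (l / 4) (k / 2) + β
  else if hAct nE nD (l / 2) (k / 2) then 2 * T + t / 2 * wdeg nE nD (k / 4) (l / 2) + β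
  else 4 * T

/-- on-site energies -/
def wGrid (nE nD : ℕ) (U W : ℕ → ℕ → F) (T t β : F) (k l : ℕ) : F :=
  wPre nE nD U W T t β k l - lapM (nK nE nD) (hopG T t) k k - lapM (nK nE nD) (hopG T t) l l

end Fld

/-! ### The circuit Hamiltonian -/

/-- Description of a verifier: witness qubits, ancillas, output qubit, gates. -/
abbrev CD : Type := Un × Un × ℕ × List (ℕ × ℕ × ℕ)

def Verifier.cd (V : Verifier) : CD := (⟨V.w⟩, ⟨V.a⟩, V.out, V.gates.map Gate.data)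

/-- Sparse integer vectors `c₁ e_{i₁} + c₂ e_{i₂}`. -/
abbrev SV : Type := ℕ × ℤ × ℕ × ℤ

def SV.val (v : SV) (k : ℕ) : ℤ :=
  (if k = v.1 then v.2.1 else 0) + (if k = v.2.2.1 then v.2.2.2 else 0)

def SV.partner (v : SV) : SV := (v.1, v.2.2.2, v.2.2.1, -v.2.1)

def SV.size (v : SV) : ℕ := v.2.1.natAbs + v.2.2.2.natAbs

def SV.zero : SV := (0, 0, 0, 0)

/-- `c e_i` -/
def SV.one (i : ℕ) (c : ℤ) : SV := (i, c, i, 0)

namespace CD

variable (d : CD)

def w : ℕ := d.1.v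

/-- number of qubits of the verifier; it is also the index of the extra real qubit -/
def n : ℕ := d.1.v + d.2.1.v

def out : ℕ := d.2.2.1

/-- real steps `(control, target, gate if 0, gate if 1)`; gates `0 = I, 1 = X, 2 = Z, 3 = H'` -/
def steps : List (ℕ × ℕ × ℕ × ℕ) :=
  d.2.2.2.flatMap fun g =>
    if g.1 = 0 then [(d.n, g.2.1, 3, 3)]
    else if g.1 = 1 then [(g.2.1, d.n, 0, 2), (g.2.1, d.n, 0, 3)]
    else [(g.2.1, g.2.2, 0, 1)]

def nT : ℕ := d.steps.length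

/-- dimension of the clock -/
def dC : ℕ := 5 * d.nT + 1

def nq : ℕ := d.n + 1

def nD : ℕ := d.dC + 2 * d.nq

/-- index of the state `b` of qubit `q` -/
def qi (q b : ℕ) : ℕ := d.dC + 2 * q + b

def blk (k : ℕ) : ℕ := if k < d.dC then 0 else (k - d.dC) / 2 + 1

def JJ : ℕ := 1000 * (d.nT + 1)

def qq : ℕ := Nat.sqrt (2 * d.JJ ^ 2) - d.JJ

/-- `(α, β, ε)`: the gate has the eigenvector `(α, β)` with eigenvalue `1` and `(β, -α)` with
eigenvalue `ε` -/
def gv (g : ℕ) : ℤ × ℤ × ℤ :=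
  if g = 0 then (1, 0, 1) else if g = 1 then (1, 1, -1) else if g = 2 then (1, 0, -1)
  else (d.JJ, d.qq, -1)

/-- the two terms of an edge `s — s + 1` of the clock which carries the gate `g` on qubit `q` -/
def gateEdge (s q g : ℕ) : List (SV × SV) :=
  [((s, (d.JJ : ℤ), s + 1, -(d.JJ : ℤ)), (d.qi q 0, (d.gv g).1, d.qi q 1, (d.gv g).2.1)),
   ((s, (d.JJ : ℤ), s + 1, -(d.gv g).2.2 * (d.JJ : ℤ)),
     (d.qi q 0, (d.gv g).2.1, d.qi q 1, -(d.gv g).1))]

/-- `JJ (e_s - e_s')` -/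
def edge (s s' : ℕ) : SV := (s, (d.JJ : ℤ), s', -(d.JJ : ℤ))

def stepTerms (t : ℕ) (st : ℕ × ℕ × ℕ × ℕ) : List (SV × SV) :=
  [(d.edge (5 * t) (5 * t + 1), SV.one (d.qi st.1 0) 1),
   (d.edge (5 * t + 2) (5 * t + 5), SV.one (d.qi st.1 0) 1),
   (d.edge (5 * t) (5 * t + 3), SV.one (d.qi st.1 1) 1),
   (d.edge (5 * t + 4) (5 * t + 5), SV.one (d.qi st.1 1) 1),
   (SV.one (5 * t + 1) d.JJ, SV.one (d.qi st.1 1) 1),
   (SV.one (5 * t + 2) d.JJ, SV.one (d.qi st.1 1) 1),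
   (SV.one (5 * t + 3) d.JJ, SV.one (d.qi st.1 0) 1),
   (SV.one (5 * t + 4) d.JJ, SV.one (d.qi st.1 0) 1)] ++
  d.gateEdge (5 * t + 1) st.2.1 st.2.2.1 ++ d.gateEdge (5 * t + 3) st.2.1 st.2.2.2

/-- propagation, input, output, and penalties for two particles in one block -/
def base : List (SV × SV) :=
  ((List.range d.nT).flatMap fun t => d.stepTerms t (d.steps.getD t (0, 0, 0, 0))) ++
  ((List.range d.2.1.v).map fun j => (SV.one 0 d.JJ, SV.one (d.qi (d.w + j) 1) 1)) ++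
  [(SV.one (5 * d.nT) 1, SV.one (d.qi d.out 0) 1)] ++
  ((List.range d.dC).flatMap fun s => (List.range d.dC).map fun s' => (SV.one s 1, SV.one s' 1)) ++
  ((List.range d.nq).flatMap fun q =>
    [(SV.one (d.qi q 0) 1, SV.one (d.qi q 0) 1), (SV.one (d.qi q 0) 1, SV.one (d.qi q 1) 1),
     (SV.one (d.qi q 1) 1, SV.one (d.qi q 0) 1), (SV.one (d.qi q 1) 1, SV.one (d.qi q 1) 1)])

def nu0 : ℕ := 2 * (d.base.map fun c => c.1.size + c.2.size).sum + 1

def nu : ℕ := d.nu0 ^ 2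

def diagU (k : ℕ) : ℕ :=
  (d.base.map fun c => (c.1.val k).natAbs ^ 2 + (c.1.partner.val k).natAbs ^ 2).sum

def diagW (k : ℕ) : ℕ :=
  (d.base.map fun c => (c.2.val k).natAbs ^ 2 + (c.2.partner.val k).natAbs ^ 2).sum

/-- all contacts: the terms, and fillers which make the columns orthogonal of equal length -/
def terms : List (SV × SV) :=
  d.base ++ (d.base.map fun c => (c.1.partner, SV.zero)) ++
  (d.base.map fun c => (SV.zero, c.2.partner)) ++
  ((List.range d.nD).flatMap fun k => List.replicate (d.nu - d.diagU k) (SV.one k 1, SV.zero)) ++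
  ((List.range d.nD).flatMap fun k => List.replicate (d.nu - d.diagW k) (SV.zero, SV.one k 1))

def nE : ℕ := d.terms.length

def Uq (e k : ℕ) : ℚ := ((d.terms.getD e (SV.zero, SV.zero)).1.val k : ℚ) / d.nu0

def Wq (e k : ℕ) : ℚ := ((d.terms.getD e (SV.zero, SV.zero)).2.val k : ℚ) / d.nu0

def UF (e : Fin d.nE) (k : Fin d.nD) : ℝ := (d.Uq e k : ℝ)

def WF (e : Fin d.nE) (k : Fin d.nD) : ℝ := (d.Wq e k : ℝ)

def blkF (k : Fin d.nD) : Fin (d.nq + 1) := Fin.ofNat _ (d.blk k)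

/-- number of electrons -/
def NN : ℕ := 2 * nC d.nE d.nD + (d.nq + 1)

/-- a bound for all sizes -/
def SS : ℕ := d.NN + d.nD + d.nE + nK d.nE d.nD ^ 2 + d.nu + d.nT + 10

end CD

/-! ### Parameters -/

/-- The constants of the reduction. -/
structure Cst where
  om : ℕ
  H : ℕ
  kk : ℕ
  g0 : ℕ
  pHat : ℕ → ℚ
  kHat : ℕ → ℚ

namespace Cst

variable (c : Cst)

def kt : ℕ := c.kk + 60
def kT : ℕ := 4 * c.kk + 140
def k1 : ℕ := 4 * c.kk + 160
def k2 : ℕ := 5 * c.kk + 180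
def k3 : ℕ := 6 * c.kk + 200
def kM : ℕ := 2 * (c.k1 + c.k3) + 10
def kL : ℕ := c.kk * c.kM + 1
def km : ℕ := 1000 * (c.kk + 1) ^ 3
def eT : ℕ := 3 * c.km + 1 - c.k1 - c.kT
def eN : ℕ := 3 * c.km - c.k1 - c.kt
def eF : ℕ := 3 * c.km + 1 - c.kt - c.k2
def rho : ℕ := 3 * c.om ^ 2

variable (d : CD)

def gp : ℕ := Nat.size d.SS + c.g0

/-- the base `p` of all scales -/
def p : ℕ := 4 ^ c.gp d

def chain : ChD where
  K := nK d.nE d.nD
  a := c.p d ^ c.k1
  ρ := fun k => if isMain d.nE d.nD (k / 4) then c.gp d * c.k3 else 0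
  s := fun j => if j = 0 ∨ j = nK d.nE d.nD then c.gp d * (6 * c.km)
    else if j % 2 = 1 then c.gp d * c.eT else if j % 4 = 2 then c.gp d * c.eN else c.gp d * c.eF
  R := fun j => if j = 0 ∨ j = nK d.nE d.nD ∨ j % 2 = 1 then c.p d ^ c.k1
    else if j % 4 = 2 then c.p d ^ (c.k1 + 1) else c.p d ^ c.k2

def Tq : ℚ := 1 / (2 * (c.p d : ℚ) ^ (c.eT + 2 * c.k1))
def tq : ℚ := 1 / (2 * (c.p d : ℚ) ^ (c.eN + 2 * c.k1 + 1))
def bq : ℚ := 1 / (c.p d : ℚ) ^ (3 * c.km + c.k1 - 19)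
def wq : ℕ → ℕ → ℚ := wGrid d.nE d.nD d.Uq d.Wq (c.Tq d) (c.tq d) (c.bq d)
def m : ℕ := c.p d ^ c.km
def L : ℕ := c.p d ^ (4 * c.km)
def L1 : ℕ := c.p d ^ c.kL
def Lz : ℕ := 2 * c.L1 d + 2
def Del : ℕ := 6 * c.m d * c.p d ^ ((5 * c.km + 1) * c.kk)
def pH : ℚ := c.pHat (c.p d ^ (10 * c.km))
def kH : ℚ := c.kHat (c.p d ^ (10 * c.km))
def lam : ℚ := 512 * (c.m d : ℚ) ^ 3 / (c.pH d * c.rho)

def dF (i : ℕ) (x y z : ℚ) : ℚ := dF0 (c.chain d) (c.wq d) c.H (2 * c.L1 d) i x y z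

/-- the scaled position of the node `(n0, n1, n2)` of family `i` -/
def node (i n0 n1 n2 : ℕ) : ℚ × ℚ × ℚ :=
  ((if i = 0 then solve (c.Del d) (fun x => x + c.dF d 0 x (xi (c.m d) (c.L d) n1)
      (xi (c.m d) (c.Lz d) n2) / c.rho) (xi (c.m d) (c.L d) n0)
    else xi (c.m d) (c.L d) n0) + (i : ℚ) / (4 * c.Del d),
   if i = 1 then solve (c.Del d) (fun x => x + c.dF d 1 (xi (c.m d) (c.L d) n0) x
      (xi (c.m d) (c.Lz d) n2) / c.rho) (xi (c.m d) (c.L d) n1)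
    else xi (c.m d) (c.L d) n1,
   if i = 2 then solve (c.Del d) (fun x => x + c.dF d 2 (xi (c.m d) (c.L d) n0)
      (xi (c.m d) (c.L d) n1) x / c.rho) (xi (c.m d) (c.Lz d) n2)
    else xi (c.m d) (c.Lz d) n2)

def nucleus (i n0 n1 n2 : ℕ) : (ℚ × ℚ × ℚ) × ℕ :=
  (((c.node d i n0 n1 n2).1 / c.lam d, (c.node d i n0 n1 n2).2.1 / c.lam d,
    (c.node d i n0 n1 n2).2.2 / c.lam d), wt n0 * wt n1 * wt n2)

def nuclei : List ((ℚ × ℚ × ℚ) × ℕ) :=
  (List.range 3).flatMap fun i => (List.range (6 * c.m d * c.L d)).flatMap fun n0 =>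
    (List.range (6 * c.m d * c.L d)).flatMap fun n1 =>
      (List.range (6 * c.m d * c.Lz d)).map fun n2 => c.nucleus d i n0 n1 n2

/-- the bottom of the potential -/
def E0 : ℚ := -(6 * c.rho * c.pH d * c.Lz d * c.L d * c.kH d) + 3 * c.rho * (c.Lz d : ℚ) ^ 2 / 2 - c.H

def Tc : ℚ := 2 * c.Tq d - c.tq d - c.bq d

def ebase : ℚ := d.NN * (c.E0 d + 3 * c.om / 2) - 2 * nC d.nE d.nD * c.Tc d

/-- the energy scale of the signal -/
def sig : ℚ := (9 / (68 * nW d.nE d.nD)) ^ 2 /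
  (c.lam d * (c.p d : ℚ) ^ (c.k1 + 1) * (d.nu : ℚ) ^ 2 * (3 * d.nT + 1))

def inst : Instance where
  nuclei := c.nuclei d
  N := d.NN
  a := c.lam d ^ 2 * (c.ebase d + 29 / 100 * c.sig d)
  b := c.lam d ^ 2 * (c.ebase d + 37 / 100 * c.sig d)

/-- the on-site energies as real numbers -/
def wr (k l : ℕ) : ℝ := (c.wq d k l : ℝ)

/-- the smooth potential -/
def Ff (x : P3) : ℝ := F0 (c.chain d) (c.wr d) c.H (2 * c.L1 d) (x 0) (x 1) (x 2)

/-- the half sides of the box -/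
def lv : Fin 3 → ℕ := ![c.L d, c.L d, c.Lz d]

/-- the nodes as points -/
def yv (i : Fin 3) (n : Fin 3 → ℕ) : P3 := pt (c.node d i (n 0) (n 1) (n 2))

end Cst

end

end Vale.Agent.P370Z
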